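import Vale.Agent.P366.H707.CF.Main
import Vale.Agent.P366.H707.L.StokesEq

/-! Data foliated by hypersurfaces of Euclidean space: the inequality, and the divergence in the
case of equality. -/

open MeasureTheory Metric Filter Topology Set
open scoped ContDiff ENNReal

noncomputable section
namespace Vale.Agent.P366.CF

open Vale.Agent.P366 (pd E flux)
open Vale.Agent.P366.H353.N
open Vale.Agent.P366.Kerr (NullCone IsCut)
open Vale.Agent.P366.KSN (Y dts sg)
open Vale.Agent.P366.Convex (IsSupport ray)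
open Vale.Agent.P366.CH (supC bp)

variable {n : ℕ} {h : E n → ℝ} {nu : Fin n → E n → ℝ} {W : E n → ℝ} {D D' : Stmt.Exterior n}
  {X : Fin n → E n → ℝ}

/-- the flux through the boundary is at least half of the total mean curvature -/
theorem bdr_le [Fact (3 ≤ n)] (hL : IsFol h nu W D)
    (hX : ∀ i y, 0 ≤ D.F y → ContDiffAt ℝ ∞ (X i) y)
    (hb : ∀ x : E n, ‖x‖ = 1 → mcl nu (ray h x 0) / 2 ≤ ∑ i, X i (ray h x 0) * x i) :
    1 / 2 * SI (fun x => sg (supC hL.sup).H ((supC hL.sup).U x) x) ≤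
      SI (KSN.bflux (supC hL.sup) X 0) := by
  have hU : ∀ x, x ≠ 0 → (supC hL.sup).U x = 1 := fun x _ => rfl
  rw [SI_congr fun x hx => CH.bflux_body hU X hx, ← SI_cmul]
  have hsg : ContinuousOn (fun x => sg (supC hL.sup).H ((supC hL.sup).U x) x)
      (sphere (0 : E n) 1) := KSN.sg_cont (supC hL.sup) (KSN.smU (supC hL.sup))
  have hXc : ContinuousOn (fun x : E n => dts (supC hL.sup).H ((supC hL.sup).U x) x *
      ∑ i, X i (bp (supC hL.sup) x) * x i) (sphere (0 : E n) 1) := by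
    refine (KSN.dts_cont (supC hL.sup) (KSN.smU (supC hL.sup))).mul
      (continuousOn_finsetSum _ fun i _ => ContinuousOn.mul ?_
        (EuclideanSpace.proj (𝕜 := ℝ) i).continuous.continuousOn)
    intro x hx
    have hx1 : ‖x‖ = 1 := by simpa using hx
    have h0 : 0 ≤ D.F (bp (supC hL.sup) x) := (bodies hL).nonneg_bp (k := ()) hx1
    exact (ContinuousAt.comp (g := X i) (f := bp (supC hL.sup)) (x := x)
      (hX i _ h0).continuousAt
      (KSN.Y_comp (supC hL.sup) (KSN.smU (supC hL.sup))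
        (ne_zero_of_one hx1)).continuousAt).continuousWithinAt
  refine SI_mono (continuousOn_const.mul hsg) hXc fun x hx => ?_
  have h1 := hb x hx
  have h2 := KSN.dts_pos (supC hL.sup) hx (le_refl ((supC hL.sup).U x))
  have h3 := mcl_bdr hL hx
  have h4 : bp (supC hL.sup) x = ray h x 0 := CH.bp_sup hL.sup hx
  rw [h4]
  have h5 := mul_le_mul_of_nonneg_left h1 h2.le
  calc 1 / 2 * sg (supC hL.sup).H ((supC hL.sup).U x) x =
      dts (supC hL.sup).H ((supC hL.sup).U x) x * (mcl nu (ray h x 0) / 2) := by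
        rw [← h3]; ring
    _ ≤ _ := h5

/-- Minkowski's inequality -/
theorem mink_CF [Fact (3 ≤ n)] (hL : IsFol h nu W D) :
    ((n : ℝ) - 1) * om n *
      (1 / 2 * (SI (fun x => dts (supC hL.sup).H ((supC hL.sup).U x) x) / om n) ^
        (((n : ℝ) - 2) / ((n : ℝ) - 1))) ≤
      1 / 2 * SI (fun x => sg (supC hL.sup).H ((supC hL.sup).U x) x) := by
  have hn : (3 : ℝ) ≤ (n : ℝ) := by exact_mod_cast Fact.out (p := 3 ≤ n)
  have hom : 0 < om n := om_pos
  have hU : ∀ x, x ≠ 0 → (supC hL.sup).U x = 1 := fun x _ => rfl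
  have hM := CH.mink_body (C := supC hL.sup) hU
  have hc : 0 < 2 * ((n : ℝ) - 1) * om n := by
    have : 0 < (n : ℝ) - 1 := by linarith
    positivity
  rw [le_div_iff₀ hc] at hM
  linarith

/-- The bound for a general field `X` of nonnegative divergence: `B` with the flux
`(n - 1) ω B` at infinity. -/
theorem bound_CF [Fact (3 ≤ n)] (hL : IsFol h nu W D) {B : ℝ}
    (hX : ∀ i y, 0 ≤ D.F y → ContDiffAt ℝ ∞ (X i) y)
    (hlim : Tendsto (flux X) atTop (𝓝 (((n : ℝ) - 1) * om n * B)))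
    (hb : ∀ x : E n, ‖x‖ = 1 → mcl nu (ray h x 0) / 2 ≤ ∑ i, X i (ray h x 0) * x i)
    (hpos : ∀ y, 0 < D.F y → 0 ≤ ∑ i, pd i (X i) y) :
    1 / 2 * (SI (fun x => dts (supC hL.sup).H ((supC hL.sup).U x) x) / om n) ^
      (((n : ℝ) - 2) / ((n : ℝ) - 1)) ≤ B := by
  have hn : (3 : ℝ) ≤ (n : ℝ) := by exact_mod_cast Fact.out (p := 3 ≤ n)
  have hom : 0 < om n := om_pos
  obtain ⟨R, hR⟩ := D.dom.2.2.2
  have hst := KSN.stokes_le (supC hL.sup) (R0 := R) (Z := X)
    (fun y hy => (mem_iff hL).mp (hR y hy).le)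
    (fun i x s hx hs => (hX i _ (mem_Y hL hx hs)).of_le (by exact_mod_cast le_top))
    (fun x s hx hs => hpos _ (F_pos hL hx hs)) hlim
  have h1 := mink_CF hL
  have h2 := bdr_le hL hX hb
  have hc : 0 < ((n : ℝ) - 1) * om n := mul_pos (by linarith) hom
  exact le_of_mul_le_mul_left (h1.trans (h2.trans hst)) hc

/-- The case of equality: the divergence of the field vanishes. -/
theorem zero_CF [Fact (3 ≤ n)] (hL : IsFol h nu W D) {B : ℝ}
    (hX : ∀ i y, 0 ≤ D.F y → ContDiffAt ℝ ∞ (X i) y)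
    (hlim : Tendsto (flux X) atTop (𝓝 (((n : ℝ) - 1) * om n * B)))
    (hb : ∀ x : E n, ‖x‖ = 1 → mcl nu (ray h x 0) / 2 ≤ ∑ i, X i (ray h x 0) * x i)
    (hpos : ∀ y, 0 < D.F y → 0 ≤ ∑ i, pd i (X i) y)
    (hle : B ≤ 1 / 2 * (SI (fun x => dts (supC hL.sup).H ((supC hL.sup).U x) x) / om n) ^
      (((n : ℝ) - 2) / ((n : ℝ) - 1))) :
    ∀ y, 0 ≤ D.F y → ∑ i, pd i (X i) y = 0 := by
  have hn : (3 : ℝ) ≤ (n : ℝ) := by exact_mod_cast Fact.out (p := 3 ≤ n)
  have hom : 0 < om n := om_pos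
  have hc : 0 < ((n : ℝ) - 1) * om n := mul_pos (by linarith) hom
  have hdom := CH.dom_one hL.sup hL.dom
  have h1 := mink_CF hL
  have h2 := bdr_le hL hX hb
  have h3 : SI (KSN.bflux (supC hL.sup) X 0) =
      SI (fun x => dts (supC hL.sup).H ((supC hL.sup).U x) x *
        ∑ i, X i (Y (supC hL.sup).H x ((supC hL.sup).U x)) *
          (x i - (supC hL.sup).toDat.b x i)) :=
    SI_congr fun x hx => KSL.bflux_zero (supC hL.sup) X hx
  refine KSL.stokes_zero (D := D) (C := supC hL.sup) hdom hX (fun y hy => ?_) hlim ?_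
  · refine ext_le hL hy (G := fun _ => 0) (H := fun z => ∑ i, pd i (X i) z) continuousAt_const ?_
      (fun z hz => hpos z hz)
    exact tendsto_finsetSum _ fun i _ => pd_contAt (hX i y hy) i
  · rw [← h3]
    exact (mul_le_mul_of_nonneg_left hle hc.le).trans (h1.trans h2)

/-- **The Penrose inequality for data foliated by hypersurfaces of Euclidean space**, with the
vanishing of the divergence in the case of equality. -/
theorem main_CFE [Fact (3 ≤ n)] (hL : IsFol h nu W D') (hO : IsCut D' D) {m : ℝ}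
    (hlim : Tendsto (flux (XF nu W D'.K)) atTop (𝓝 (((n : ℝ) - 1) * om n * m)))
    (hb : ∀ x : E n, ‖x‖ = 1 → mcl nu (ray h x 0) / 2 ≤ ∑ i, XF nu W D'.K i (ray h x 0) * x i)
    (hpos : ∀ y, 0 < D'.F y → 0 ≤ ∑ i, pd i (XF nu W D'.K i) y) :
    (D.Amin ≤ D.area D'.F ∧ D.area D'.F ≠ ⊤ ∧ 0 < m ∧
      (D.Amin.toReal / Stmt.omega n) ^ (((n : ℝ) - 2) / ((n : ℝ) - 1)) / 2 ≤
        ((D.area D'.F).toReal / Stmt.omega n) ^ (((n : ℝ) - 2) / ((n : ℝ) - 1)) / 2 ∧
      ((D.area D'.F).toReal / Stmt.omega n) ^ (((n : ℝ) - 2) / ((n : ℝ) - 1)) / 2 ≤ m) ∧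
    (((D.area D'.F).toReal / Stmt.omega n) ^ (((n : ℝ) - 2) / ((n : ℝ) - 1)) / 2 = m →
      ∀ y, 0 ≤ D'.F y → ∑ i, pd i (XF nu W D'.K i) y = 0) := by
  obtain ⟨-, -, -, -, h6⟩ := area_cutCF hL hO
  exact ⟨main_CF hL hO hlim hb hpos, fun he =>
    zero_CF hL (fun i y hy => XF_smooth hL hy i) hlim hb hpos (he ▸ h6)⟩

end Vale.Agent.P366.CF
end
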