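import Vale.Agent.P366.H707.CF.MainZ
import Vale.Agent.P366.CF.Fin
import Vale.Agent.P366.CF.FluxZ
import Vale.Agent.P366.H353.CF.DivZ

/-! Data foliated by hypersurfaces of Euclidean space: the inequality with a vector field `Y` and
the momentum. -/

open MeasureTheory Metric Filter Topology Set
open scoped ContDiff ENNReal

noncomputable section
namespace Vale.Agent.P366.CF

open Vale.Agent.P366 (pd E flux)
open Vale.Agent.P366.H353.N
open Vale.Agent.P366.Kerr (NullCone IsCut)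
open Vale.Agent.P366.Convex (IsSupport ray)
open Vale.Agent.P366.CH (supC bp)

variable {n : ℕ} {h : E n → ℝ} {nu : Fin n → E n → ℝ} {W : E n → ℝ} {D D' : Stmt.Exterior n}
  {Y : Fin n → E n → ℝ} {x y : E n}

/-- `⟨π, ∇Y⟩` vanishes for `Y = 0` -/
lemma piDer_zero {g K : Stmt.Field n} (hY : ∀ i x, Y i x = 0) (x : E n) :
    GraphClass.piDer g K Y x = 0 := by
  unfold GraphClass.piDer GraphClass.covDer
  refine Finset.sum_eq_zero fun i _ => Finset.sum_eq_zero fun k _ => ?_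
  have h4 : ∀ j, Stmt.pd k (Y j) x = 0 := by
    intro j
    have h5 : Y j = fun _ => 0 := by funext z; exact hY j z
    rw [h5]
    have h7 : DifferentiableAt ℝ (fun _ : E n => (0 : ℝ)) x := differentiableAt_const _
    unfold Stmt.pd
    rw [h7.lineDeriv_eq_fderiv]
    simp
  have h6 : ∑ j, Stmt.momT g K x i j *
      (Stmt.pd k (Y j) x + ∑ l, Stmt.chr g j k l x * Y l x) = 0 :=
    Finset.sum_eq_zero fun j _ => by
      rw [h4 j]
      simp only [hY, mul_zero, Finset.sum_const_zero, add_zero]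
  rw [h6, mul_zero]

/-- The field `√(1 + W) π(Y)` on the boundary. -/
lemma QZ_bdr [Fact (3 ≤ n)] (hL : IsFol h nu W D) (hx : ‖x‖ = 1) :
    ∑ i, QZ W D.g D.K Y i (ray h x 0) * x i = 1 / √(1 + W (ray h x 0)) *
      ∑ i, ∑ j, Stmt.momT D.g D.K (ray h x 0) i j * x i * Y j (ray h x 0) := by
  have h0 : 0 ≤ D.F (ray h x 0) := (F_ray hL hx).ge
  have hb : ∀ i, nu i (ray h x 0) = x i := fun i => hL.bdr x hx i
  set p := ray h x 0 with hp
  have h1 := pf_oW hL h0
  have hup : ∀ i j, Stmt.up D.g i j p = kd i j - W p / (1 + W p) * nu i p * nu j p := fun i j => by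
    rw [Stmt.CLt.up_rank (hL.unit p h0) h1 fun i j => (pf_met hL h0 i j).trans rfl]
    rfl
  have h2 : √(1 + W p) ≠ 0 := (Real.sqrt_pos.2 h1).ne'
  have h3 : √(1 + W p) * √(1 + W p) = 1 + W p := Real.mul_self_sqrt h1.le
  have hun : ∑ i, x i * x i = 1 := by
    rw [← pf_un hL h0]
    exact Finset.sum_congr rfl fun i _ => by rw [hb]
  have e1 : ∀ i, QZ W D.g D.K Y i p = √(1 + W p) *
      ((∑ j, Stmt.momT D.g D.K p i j * Y j p) -
        W p / (1 + W p) * (∑ k, (∑ j, Stmt.momT D.g D.K p k j * Y j p) * x k) * x i) := fun i => by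
    unfold QZ
    simp only [hup]
    rw [ctr1 (fun i => nu i p) (fun k => ∑ j, Stmt.momT D.g D.K p k j * Y j p)
      (W p / (1 + W p)) i]
    simp only [hb]
  set q := ∑ k, (∑ j, Stmt.momT D.g D.K p k j * Y j p) * x k with hq
  have e2 : ∑ i, QZ W D.g D.K Y i p * x i = √(1 + W p) * (q - W p / (1 + W p) * q) := by
    have e3 : ∀ i, QZ W D.g D.K Y i p * x i = √(1 + W p) *
        ((∑ j, Stmt.momT D.g D.K p i j * Y j p) * x i) -
        √(1 + W p) * (W p / (1 + W p) * q) * (x i * x i) := fun i => by rw [e1]; ring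
    rw [Finset.sum_congr rfl fun i _ => e3 i, Finset.sum_sub_distrib, ← Finset.mul_sum,
      ← Finset.mul_sum, ← hq, hun]
    ring
  have e4 : ∑ i, ∑ j, Stmt.momT D.g D.K p i j * x i * Y j p = q := by
    rw [hq]
    refine Finset.sum_congr rfl fun i _ => ?_
    rw [Finset.sum_mul]
    exact Finset.sum_congr rfl fun j _ => by ring
  rw [e2, e4]
  have h4 : (1 + W p) ≠ 0 := h1.ne'
  have h5 : q - W p / (1 + W p) * q = q / (√(1 + W p) * √(1 + W p)) := by
    rw [h3]; field_simp; ring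
  rw [h5]
  field_simp

/-- **(a)** The clause with the vector field `Y`. -/
theorem clauseY (hn : 3 ≤ n) (hO : IsCut D' D) (hL : IsFol h nu W D') (hT : D'.Trapped)
    (hAF : D.IsAF) {m : ℝ} (hm : D.IsEnergy m) {y : Fin n → ℝ}
    (hY : ∀ i, Stmt.Smooth (Y i))
    (ha : ∃ a : ℝ, (n : ℝ) / 2 - 1 < a ∧ ∀ i, Stmt.BigO a fun x => Y i x - y i)
    (hS : ∀ x, Stmt.len x = 1 →
      ∑ i, ∑ j, Stmt.momT D'.g D'.K (ray h x 0) i j * x i * Y j (ray h x 0) ≤ 0)
    (hin : ∀ x, 0 < D'.F x → √(1 + W x) * (∑ j, Y j x * Stmt.mom D'.g D'.K j x +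
      GraphClass.piDer D'.g D'.K Y x) ≤ 2 * den nu W D'.g D'.K x) :
    ((∀ i x, Y i x = 0) →
      ((D.area D'.F).toReal / Stmt.omega n) ^ (((n : ℝ) - 2) / ((n : ℝ) - 1)) / 2 ≤ m) ∧
    ∀ P : Fin n → ℝ, D.IsMomentum P →
      ((D.area D'.F).toReal / Stmt.omega n) ^ (((n : ℝ) - 2) / ((n : ℝ) - 1)) / 2 ≤
        m - (∑ j, y j * P j) / 2 ∧
      ((∀ j, m * y j = 2 * P j) → ∑ j, y j ^ 2 < 4 →
        √(∑ j, P j ^ 2) < m ∧
        ((D.area D'.F).toReal / Stmt.omega n) ^ (((n : ℝ) - 2) / ((n : ℝ) - 1)) / 2 ≤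
          √(m ^ 2 - ∑ j, P j ^ 2)) := by
  have : Fact (3 ≤ n) := ⟨hn⟩
  have hAF' := KSR.cut_AF hO hAF
  have hlim := flux_XF hL hAF' (KSR.cut_energy hO hm)
  refine ⟨fun hY0 => ?_, fun P hP => ?_⟩
  · refine (main_CF hL hO hlim (fun x hx => bdr_half hL hT hx) fun y hy => ?_).2.2.2.2
    have h1 := hin y hy
    have h2 : ∑ j, Y j y * Stmt.mom D'.g D'.K j y = 0 :=
      Finset.sum_eq_zero fun j _ => by rw [hY0, zero_mul]
    rw [h2, piDer_zero hY0, add_zero, mul_zero] at h1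
    rw [div_XF hL hy]
    linarith
  · obtain ⟨a, ha1, ha2⟩ := ha
    have hlQ := flux_QZ_aux hL hAF' (KSR.cut_momentum hO hP) hY ha1 ha2
    have hQd : ∀ i y, 0 ≤ D'.F y → ContDiffAt ℝ ∞ (QZ W D'.g D'.K Y i) y :=
      fun i y hy => QZ_cd hL hY hy i
    refine main_CFP (Q := fun i y => -1 / 2 * QZ W D'.g D'.K Y i y) hL hO
      (fun i y hy => contDiffAt_const.mul (hQd i y hy)) hlim ?_
      (fun x hx => bdr_half hL hT hx) (fun x hx => ?_) fun y hy => ?_
    · have h1 := hlQ.const_mul (-1 / 2)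
      have h2 : -1 / 2 * (((n : ℝ) - 1) * om n * ∑ j, y j * P j) =
          ((n : ℝ) - 1) * om n * -((∑ j, y j * P j) / 2) := by ring
      rw [h2] at h1
      refine h1.congr fun r => ?_
      have e : (fun i y => √(1 + W y) * ∑ k, Stmt.up D'.g i k y *
        ∑ j, Stmt.momT D'.g D'.K y k j * Y j y) = QZ W D'.g D'.K Y := rfl
      rw [e, H474.W.flux_SI, H474.W.flux_SI, mul_left_comm, ← SI_cmul]
      congr 2
      funext x
      rw [Finset.mul_sum]
      exact Finset.sum_congr rfl fun i _ => by ring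
    · have h1 := QZ_bdr (Y := Y) hL hx
      have h2 : ∑ i, -1 / 2 * QZ W D'.g D'.K Y i (ray h x 0) * x i =
          -1 / 2 * ∑ i, QZ W D'.g D'.K Y i (ray h x 0) * x i := by
        rw [Finset.mul_sum]
        exact Finset.sum_congr rfl fun i _ => by ring
      rw [h2, h1]
      have h3 := hS x hx
      have h4 : 0 ≤ 1 / √(1 + W (ray h x 0)) := by positivity
      nlinarith [mul_nonneg h4 (neg_nonneg.2 h3)]
    · have h1 := hin y hy
      have h2 := div_QZ hL hY hy
      have h3 : ∑ i, pd i (fun y => -1 / 2 * QZ W D'.g D'.K Y i y) y =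
          -1 / 2 * ∑ i, pd i (QZ W D'.g D'.K Y i) y := by
        rw [Finset.mul_sum]
        refine Finset.sum_congr rfl fun i _ => ?_
        have a1 : DifferentiableAt ℝ (QZ W D'.g D'.K Y i) y :=
          (hQd i y hy.le).differentiableAt (by simp)
        unfold Vale.Agent.P366.pd
        rw [fderiv_const_mul a1]
        rfl
      have h4 : ∑ j, Stmt.mom D'.g D'.K j y * Y j y = ∑ j, Y j y * Stmt.mom D'.g D'.K j y :=
        Finset.sum_congr rfl fun j _ => mul_comm _ _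
      rw [h3, h2, h4, div_XF hL hy]
      linarith

end Vale.Agent.P366.CF
end
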