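import Vale.Agent.P366.H707.CH.AreaC
import Vale.Agent.P366.H707.CH.Pow

/-! The area of the boundary of the region outside several strictly convex bodies for a metric
which is Euclidean on the tangent spaces of the boundary. -/

open MeasureTheory Metric Filter Topology Set
open scoped ContDiff ENNReal

noncomputable section
namespace Vale.Agent.P366.CH

open Vale.Agent.P366 (pd E flux)
open Vale.Agent.P366.H353.N
open Vale.Agent.P366.Kerr (NullCone Psi IsCut)
open Vale.Agent.P366.KSN (Y dts sg Ms bflux OO mem_OO isOpen_OO)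
open Vale.Agent.P366.KSR (cutX cut_Amin)
open Vale.Agent.P366.KSD
open Vale.Agent.H45G (rpow_sum_le rpow_sum_lt)

variable {n : ℕ} {ι : Type} {C : ι → NullCone n} {D D' X : Stmt.Exterior n} {f w : E n → ℝ}

lemma det_rank {g : Stmt.Field n} {y : E n} {ν : Fin n → ℝ} {w : ℝ} (one : ∑ i, ν i ^ 2 = 1)
    (hg : ∀ i j, g y i j = (if i = j then 1 else 0) + w * ν i * ν j) :
    (Stmt.mat g y).det = 1 + w := by
  have h : Stmt.mat g y = 1 + Matrix.replicateCol Unit (fun i => w * ν i) *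
      Matrix.replicateRow Unit ν := by
    ext i j
    simp [Stmt.mat, hg, Matrix.one_apply, Matrix.mul_apply]
  rw [h, Matrix.det_one_add_replicateCol_mul_replicateRow]
  unfold dotProduct
  have e : ∀ i, ν i * (w * ν i) = w * ν i ^ 2 := fun i => by ring
  simp only [e, ← Finset.mul_sum, one, mul_one]

/-- Test fields: the flux bound. -/
lemma nu_bound {g : Stmt.Field n} {y : E n} {ν : Fin n → ℝ} {w : ℝ} (one : ∑ i, ν i ^ 2 = 1)
    (hg : ∀ i j, g y i j = (if i = j then 1 else 0) + w * ν i * ν j) (hw : 0 < 1 + w)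
    (v : Fin n → ℝ) (hv : ∑ i, ∑ j, g y i j * v i * v j ≤ 1) :
    -(∑ i, √(Stmt.mat g y).det * v i * ν i) ≤ 1 := by
  rw [det_rank one hg]
  set s := ∑ i, v i * ν i with hs
  have h1 : ∑ i, ∑ j, g y i j * v i * v j = ∑ i, v i ^ 2 + w * s ^ 2 := by
    have : ∀ i j, g y i j * v i * v j = (if i = j then v i * v j else 0) +
        w * ((v i * ν i) * (v j * ν j)) := by
      intro i j
      rw [hg]
      split_ifs <;> ring
    simp only [this, Finset.sum_add_distrib, Finset.sum_ite_eq, Finset.mem_univ, if_true,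
      ← Finset.mul_sum]
    congr 1
    · exact Finset.sum_congr rfl fun i _ => by ring
    · simp only [← hs]
      rw [← Finset.sum_mul, ← hs]
      ring
  have h2 : s ^ 2 ≤ ∑ i, v i ^ 2 := by
    have := Finset.sum_mul_sq_le_sq_mul_sq Finset.univ v ν
    rwa [one, mul_one] at this
  have h3 : (√(1 + w) * s) ^ 2 ≤ 1 := by
    rw [mul_pow, Real.sq_sqrt hw.le]
    rw [h1] at hv
    linarith
  have h4 : ∑ i, √(1 + w) * v i * ν i = √(1 + w) * s := by
    rw [hs, Finset.mul_sum]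
    exact Finset.sum_congr rfl fun i _ => by ring
  rw [h4]
  have := abs_le_of_sq_le_sq' (a := √(1 + w) * s) (b := 1) (by simpa using h3) zero_le_one
  linarith [this.1]

/-- **[F5]** The area of the boundary, for a metric `δ + w ν ν` on the boundary. -/
theorem area_nu [Fact (3 ≤ n)] [Fintype ι] (hB : Bodies D'.F C) (hO : IsCut D' D)
    (hg : ∀ k (x : E n), ‖x‖ = 1 → ∀ i j, D'.g (bp (C k) x) i j =
      (if i = j then 1 else 0) + w (bp (C k) x) * x i * x j) :
    D.area D'.F ≤ ENNReal.ofReal (∑ k, SI (fun x => dts (C k).H ((C k).U x) x)) := by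
  refine le_trans (outer_area (D' := cutX hO) (D := D) ⟨hO.sub, rfl, rfl⟩ D'.F) ?_
  refine area_gen (X := cutX hO) hB fun k x hx v hv => ?_
  have h0 : D'.F (bp (C k) x) = 0 := hB.bdr k x hx
  have hgx : ∀ i j, (cutX hO).g (bp (C k) x) i j =
      (if i = j then 1 else 0) + w (bp (C k) x) * x i * x j := fun i j => by
    show D.g (bp (C k) x) i j = _
    rw [← hO.met _ h0 i j, hg k x hx]
  have one : ∑ i, x i ^ 2 = 1 := by
    rw [← KSN.sum_xx hx]
    exact Finset.sum_congr rfl fun i _ => by ring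
  have hw : 0 < 1 + w (bp (C k) x) := by
    have h1 := ((cutX hO).pos (bp (C k) x) (by
      show 0 ≤ D'.F (bp (C k) x)
      rw [h0])).det_pos
    rwa [det_rank (g := (cutX hO).g) (y := bp (C k) x) one hgx] at h1
  exact nu_bound one hgx hw v hv

/-- The powers of the areas. -/
theorem pow_of [Fact (3 ≤ n)] [Fintype ι] (hB : Bodies D'.F C) (hO : IsCut D' D)
    (hA : D.area D'.F ≤ ENNReal.ofReal (∑ k, SI (fun x => dts (C k).H ((C k).U x) x))) :
    D.Amin ≤ D.area D'.F ∧ D.area D'.F ≠ ⊤ ∧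
    0 < ∑ k, 1 / 2 * (arB (C k) / om n) ^ (((n : ℝ) - 2) / ((n : ℝ) - 1)) ∧
    (D.Amin.toReal / Stmt.omega n) ^ (((n : ℝ) - 2) / ((n : ℝ) - 1)) / 2 ≤
      ((D.area D'.F).toReal / Stmt.omega n) ^ (((n : ℝ) - 2) / ((n : ℝ) - 1)) / 2 ∧
    ((D.area D'.F).toReal / Stmt.omega n) ^ (((n : ℝ) - 2) / ((n : ℝ) - 1)) / 2 ≤
      ∑ k, 1 / 2 * (arB (C k) / om n) ^ (((n : ℝ) - 2) / ((n : ℝ) - 1)) ∧
    ((∃ j k : ι, j ≠ k) →
      ((D.area D'.F).toReal / Stmt.omega n) ^ (((n : ℝ) - 2) / ((n : ℝ) - 1)) / 2 <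
        ∑ k, 1 / 2 * (arB (C k) / om n) ^ (((n : ℝ) - 2) / ((n : ℝ) - 1))) := by
  have hn : (3 : ℝ) ≤ (n : ℝ) := by exact_mod_cast Fact.out (p := 3 ≤ n)
  have hom : 0 < om n := om_pos
  have hne := ne_bodies hB
  have hA' : D.area D'.F ≤ ENNReal.ofReal (∑ k, arB (C k)) := hA
  have hmin : D.Amin ≤ D.area D'.F := cut_Amin hO
  have htop : D.area D'.F ≠ ⊤ := ne_top_of_le_ne_top ENNReal.ofReal_ne_top hA'
  have ha : ∀ k, 0 < arB (C k) / om n := fun k => div_pos (arB_pos (C k)) hom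
  have hS : 0 ≤ ∑ k, arB (C k) := Finset.sum_nonneg fun k _ => (arB_pos (C k)).le
  set p : ℝ := ((n : ℝ) - 2) / ((n : ℝ) - 1) with hp
  have hp0 : 0 < p := div_pos (by linarith) (by linarith)
  have hp1 : p < 1 := by rw [hp, div_lt_one (by linarith)]; linarith
  have hle : (D.area D'.F).toReal ≤ ∑ k, arB (C k) := by
    have := ENNReal.toReal_mono ENNReal.ofReal_ne_top hA'
    rwa [ENNReal.toReal_ofReal hS] at this
  have hle2 : (D.area D'.F).toReal / om n ≤ ∑ k, arB (C k) / om n := by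
    rw [← Finset.sum_div]
    exact div_le_div_of_nonneg_right hle hom.le
  have h3 : ((D.area D'.F).toReal / om n) ^ p ≤ (∑ k, arB (C k) / om n) ^ p :=
    Real.rpow_le_rpow (div_nonneg ENNReal.toReal_nonneg hom.le) hle2 hp0.le
  have h4 := rpow_sum_le Finset.univ (fun k => arB (C k) / om n) (fun k => (ha k).le) hp0 hp1.le
  have h5 : (D.Amin.toReal / om n) ^ p ≤ ((D.area D'.F).toReal / om n) ^ p :=
    Real.rpow_le_rpow (div_nonneg ENNReal.toReal_nonneg hom.le)
      (div_le_div_of_nonneg_right (ENNReal.toReal_mono htop hmin) hom.le) hp0.le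
  have h6 : ∑ k, 1 / 2 * (arB (C k) / om n) ^ p = (∑ k, (arB (C k) / om n) ^ p) / 2 := by
    rw [← Finset.mul_sum]
    ring
  rw [KSN.om_eq, h6]
  refine ⟨hmin, htop, ?_, by linarith, by linarith, ?_⟩
  · have : 0 < ∑ k, (arB (C k) / om n) ^ p :=
      Finset.sum_pos (fun k _ => Real.rpow_pos_of_pos (ha k) _) Finset.univ_nonempty
    linarith
  · rintro ⟨j, k, hjk⟩
    have h7 := rpow_sum_lt (fun k => arB (C k) / om n) ha hp0 hp1 hjk
    linarith

end Vale.Agent.P366.CH
end
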