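import Vale.Agent.P366.H707.CF.Area
import Vale.Agent.P366.H375.CH.LeafOf
import Vale.Agent.P366.CF.Defs

/-! Data foliated by hypersurfaces of Euclidean space: the area of the boundary. -/

open MeasureTheory Metric Filter Topology Set
open scoped ContDiff ENNReal

noncomputable section
namespace Vale.Agent.P366.CF

open Vale.Agent.P366 (pd E flux)
open Vale.Agent.P366.H353.N
open Vale.Agent.P366.Kerr (NullCone IsCut)
open Vale.Agent.P366.KSN (dts)
open Vale.Agent.P366.KSR (cut_Amin)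
open Vale.Agent.P366.Convex (IsSupport ray)
open Vale.Agent.P366.CH (supC bodies_one bp_sup area_nu pow_of arB arB_pos)

variable {n : ℕ} {h : E n → ℝ} {nu : Fin n → E n → ℝ} {W : E n → ℝ} {D D' : Stmt.Exterior n}

/-- **[F5]** The area of the boundary in an exterior of which it is an enclosing cut. -/
theorem area_CF [Fact (3 ≤ n)] (hL : IsFol h nu W D') (hO : IsCut D' D) :
    D.area D'.F ≤ ENNReal.ofReal
      (SI (fun x => dts (supC hL.sup).H ((supC hL.sup).U x) x)) := by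
  have hB := bodies_one hL.sup D'.dom.1.continuous hL.dom
  have h1 := area_nu (w := W) hB hO fun k x hx i j => by
    have h0 : 0 ≤ D'.F (CH.bp (supC hL.sup) x) := hB.nonneg_bp (k := k) hx
    have e : ∀ i, nu i (CH.bp (supC hL.sup) x) = x i := fun i => by
      rw [bp_sup hL.sup hx]
      exact hL.bdr x hx i
    rw [hL.met _ h0, e, e]
  simpa using h1

/-- the areas -/
theorem area_cutCF [Fact (3 ≤ n)] (hL : IsFol h nu W D') (hO : IsCut D' D) :
    D.Amin ≤ D.area D'.F ∧ D.area D'.F ≠ ⊤ ∧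
    0 < 1 / 2 * (SI (fun x => dts (supC hL.sup).H ((supC hL.sup).U x) x) / om n) ^
      (((n : ℝ) - 2) / ((n : ℝ) - 1)) ∧
    (D.Amin.toReal / Stmt.omega n) ^ (((n : ℝ) - 2) / ((n : ℝ) - 1)) / 2 ≤
      ((D.area D'.F).toReal / Stmt.omega n) ^ (((n : ℝ) - 2) / ((n : ℝ) - 1)) / 2 ∧
    ((D.area D'.F).toReal / Stmt.omega n) ^ (((n : ℝ) - 2) / ((n : ℝ) - 1)) / 2 ≤
      1 / 2 * (SI (fun x => dts (supC hL.sup).H ((supC hL.sup).U x) x) / om n) ^
        (((n : ℝ) - 2) / ((n : ℝ) - 1)) := by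
  have hB := bodies_one hL.sup D'.dom.1.continuous hL.dom
  obtain ⟨h1, h2, h3, h4, h5, -⟩ := pow_of hB hO (by simpa using area_CF hL hO)
  have e : ∑ _k : Unit, 1 / 2 * (arB (supC hL.sup) / om n) ^ (((n : ℝ) - 2) / ((n : ℝ) - 1)) =
      1 / 2 * (SI (fun x => dts (supC hL.sup).H ((supC hL.sup).U x) x) / om n) ^
        (((n : ℝ) - 2) / ((n : ℝ) - 1)) := by
    simp [arB]
  rw [e] at h3 h5
  exact ⟨h1, h2, h3, h4, h5⟩

end Vale.Agent.P366.CF
end
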