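import Vale.Agent.P366.H707.CF.AreaF
import Vale.Agent.P366.CF.Bd
import Vale.Agent.P366.H745.CH.Mink
import Vale.Agent.P366.H222.K.Cut

/-! Data foliated by hypersurfaces of Euclidean space: the inequality. -/

open MeasureTheory Metric Filter Topology Set
open scoped ContDiff ENNReal

noncomputable section
namespace Vale.Agent.P366.CF

open Vale.Agent.P366 (pd E flux)
open Vale.Agent.P366.H353.N
open Vale.Agent.P366.Kerr (NullCone IsCut)
open Vale.Agent.P366.KSN (Y dts sg)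
open Vale.Agent.P366.Convex (IsSupport ray)
open Vale.Agent.P366.CH (supC bp)

variable {n : ℕ} {h : E n → ℝ} {nu : Fin n → E n → ℝ} {W : E n → ℝ} {D D' : Stmt.Exterior n}

/-- The energy bound. -/
theorem energy_CF [Fact (3 ≤ n)] (hL : IsFol h nu W D) {m : ℝ}
    (hlim : Tendsto (flux (XF nu W D.K)) atTop (𝓝 (((n : ℝ) - 1) * om n * m)))
    (hb : ∀ x : E n, ‖x‖ = 1 → mcl nu (ray h x 0) / 2 ≤ ∑ i, XF nu W D.K i (ray h x 0) * x i)
    (hpos : ∀ y, 0 < D.F y → 0 ≤ ∑ i, pd i (XF nu W D.K i) y) :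
    1 / 2 * (SI (fun x => dts (supC hL.sup).H ((supC hL.sup).U x) x) / om n) ^
      (((n : ℝ) - 2) / ((n : ℝ) - 1)) ≤ m := by
  have hn : (3 : ℝ) ≤ (n : ℝ) := by exact_mod_cast Fact.out (p := 3 ≤ n)
  have hom : 0 < om n := om_pos
  obtain ⟨R, hR⟩ := D.dom.2.2.2
  have hU : ∀ x, x ≠ 0 → (supC hL.sup).U x = 1 := fun x _ => rfl
  -- the divergence theorem
  have hst := KSN.stokes_le (supC hL.sup) (R0 := R) (Z := XF nu W D.K)
    (fun y hy => (mem_iff hL).mp (hR y hy).le)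
    (fun i x s hx hs => (XF_smooth hL (mem_Y hL hx hs) i).of_le (by exact_mod_cast le_top))
    (fun x s hx hs => hpos _ (F_pos hL hx hs)) hlim
  -- the boundary
  have hle : 1 / 2 * SI (fun x => sg (supC hL.sup).H ((supC hL.sup).U x) x) ≤
      SI (KSN.bflux (supC hL.sup) (XF nu W D.K) 0) := by
    rw [SI_congr fun x hx => CH.bflux_body hU (XF nu W D.K) hx, ← SI_cmul]
    have hsg : ContinuousOn (fun x => sg (supC hL.sup).H ((supC hL.sup).U x) x)
        (sphere (0 : E n) 1) := KSN.sg_cont (supC hL.sup) (KSN.smU (supC hL.sup))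
    have hX : ContinuousOn (fun x : E n => dts (supC hL.sup).H ((supC hL.sup).U x) x *
        ∑ i, XF nu W D.K i (bp (supC hL.sup) x) * x i) (sphere (0 : E n) 1) := by
      refine (KSN.dts_cont (supC hL.sup) (KSN.smU (supC hL.sup))).mul
        (continuousOn_finsetSum _ fun i _ => ContinuousOn.mul ?_
          (EuclideanSpace.proj (𝕜 := ℝ) i).continuous.continuousOn)
      intro x hx
      have hx1 : ‖x‖ = 1 := by simpa using hx
      have h0 : 0 ≤ D.F (bp (supC hL.sup) x) := (bodies hL).nonneg_bp (k := ()) hx1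
      exact (ContinuousAt.comp (g := XF nu W D.K i) (f := bp (supC hL.sup)) (x := x)
        (XF_smooth hL h0 i).continuousAt
        (KSN.Y_comp (supC hL.sup) (KSN.smU (supC hL.sup))
          (ne_zero_of_one hx1)).continuousAt).continuousWithinAt
    refine SI_mono (continuousOn_const.mul hsg) hX fun x hx => ?_
    have h1 := hb x hx
    have h2 := KSN.dts_pos (supC hL.sup) hx (le_refl ((supC hL.sup).U x))
    have h3 := mcl_bdr hL hx
    have h4 : bp (supC hL.sup) x = ray h x 0 := CH.bp_sup hL.sup hx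
    rw [h4]
    have h5 := mul_le_mul_of_nonneg_left h1 h2.le
    calc 1 / 2 * sg (supC hL.sup).H ((supC hL.sup).U x) x =
        dts (supC hL.sup).H ((supC hL.sup).U x) x * (mcl nu (ray h x 0) / 2) := by
          rw [← h3]; ring
      _ ≤ _ := h5
  have hM := CH.mink_body (C := supC hL.sup) hU
  have hc : 0 < 2 * ((n : ℝ) - 1) * om n := by
    have : 0 < (n : ℝ) - 1 := by linarith
    positivity
  rw [le_div_iff₀ hc] at hM
  set M := 1 / 2 * (SI (fun x => dts (supC hL.sup).H ((supC hL.sup).U x) x) / om n) ^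
      (((n : ℝ) - 2) / ((n : ℝ) - 1)) with hMd
  have h11 : M * (2 * ((n : ℝ) - 1) * om n) ≤ m * (2 * ((n : ℝ) - 1) * om n) := by
    linarith
  exact le_of_mul_le_mul_right h11 hc

/-- **The Penrose inequality for data foliated by hypersurfaces of Euclidean space.** -/
theorem main_CF [Fact (3 ≤ n)] (hL : IsFol h nu W D') (hO : IsCut D' D) {m : ℝ}
    (hlim : Tendsto (flux (XF nu W D'.K)) atTop (𝓝 (((n : ℝ) - 1) * om n * m)))
    (hb : ∀ x : E n, ‖x‖ = 1 → mcl nu (ray h x 0) / 2 ≤ ∑ i, XF nu W D'.K i (ray h x 0) * x i)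
    (hpos : ∀ y, 0 < D'.F y → 0 ≤ ∑ i, pd i (XF nu W D'.K i) y) :
    D.Amin ≤ D.area D'.F ∧ D.area D'.F ≠ ⊤ ∧ 0 < m ∧
      (D.Amin.toReal / Stmt.omega n) ^ (((n : ℝ) - 2) / ((n : ℝ) - 1)) / 2 ≤
        ((D.area D'.F).toReal / Stmt.omega n) ^ (((n : ℝ) - 2) / ((n : ℝ) - 1)) / 2 ∧
      ((D.area D'.F).toReal / Stmt.omega n) ^ (((n : ℝ) - 2) / ((n : ℝ) - 1)) / 2 ≤ m := by
  obtain ⟨h1, h2, h3, h5, h6⟩ := area_cutCF hL hO
  have h7 := energy_CF hL hlim hb hpos
  exact ⟨h1, h2, h3.trans_le h7, h5, h6.trans h7⟩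

end Vale.Agent.P366.CF
end
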