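import Vale.Agent.P366.H707.CF.MainE
import Vale.Agent.P366.H474.W.C
import Vale.Agent.P366.H745.CH.Final4

/-! Data foliated by hypersurfaces of Euclidean space: the inequality with a second field. -/

open MeasureTheory Metric Filter Topology Set
open scoped ContDiff ENNReal

noncomputable section
namespace Vale.Agent.P366.CF

open Vale.Agent.P366 (pd E flux)
open Vale.Agent.P366.H353.N
open Vale.Agent.P366.Kerr (NullCone IsCut)
open Vale.Agent.P366.KSN (Y dts sg)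
open Vale.Agent.P366.Convex (IsSupport ray)
open Vale.Agent.P366.CH (supC bp)

variable {n : ℕ} {h : E n → ℝ} {nu : Fin n → E n → ℝ} {W : E n → ℝ} {D D' : Stmt.Exterior n}
  {X Q : Fin n → E n → ℝ}

/-- The inequality for a general field `X` of nonnegative divergence. -/
theorem main_CFX [Fact (3 ≤ n)] (hL : IsFol h nu W D') (hO : IsCut D' D) {B : ℝ}
    (hX : ∀ i y, 0 ≤ D'.F y → ContDiffAt ℝ ∞ (X i) y)
    (hlim : Tendsto (flux X) atTop (𝓝 (((n : ℝ) - 1) * om n * B)))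
    (hb : ∀ x : E n, ‖x‖ = 1 → mcl nu (ray h x 0) / 2 ≤ ∑ i, X i (ray h x 0) * x i)
    (hpos : ∀ y, 0 < D'.F y → 0 ≤ ∑ i, pd i (X i) y) :
    D.Amin ≤ D.area D'.F ∧ D.area D'.F ≠ ⊤ ∧ 0 < B ∧
      (D.Amin.toReal / Stmt.omega n) ^ (((n : ℝ) - 2) / ((n : ℝ) - 1)) / 2 ≤
        ((D.area D'.F).toReal / Stmt.omega n) ^ (((n : ℝ) - 2) / ((n : ℝ) - 1)) / 2 ∧
      ((D.area D'.F).toReal / Stmt.omega n) ^ (((n : ℝ) - 2) / ((n : ℝ) - 1)) / 2 ≤ B := by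
  obtain ⟨h1, h2, h3, h5, h6⟩ := area_cutCF hL hO
  have h7 := bound_CF hL hX hlim hb hpos
  exact ⟨h1, h2, h3.trans_le h7, h5, h6.trans h7⟩

/-- The sum of the field `XF` and a field `Q`. -/
theorem main_CFQ [Fact (3 ≤ n)] (hL : IsFol h nu W D') (hO : IsCut D' D) {m e : ℝ}
    (hQ : ∀ i y, 0 ≤ D'.F y → ContDiffAt ℝ ∞ (Q i) y)
    (hlim : Tendsto (flux (XF nu W D'.K)) atTop (𝓝 (((n : ℝ) - 1) * om n * m)))
    (hlimQ : Tendsto (flux Q) atTop (𝓝 (((n : ℝ) - 1) * om n * e)))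
    (hb : ∀ x : E n, ‖x‖ = 1 → mcl nu (ray h x 0) / 2 ≤ ∑ i, XF nu W D'.K i (ray h x 0) * x i)
    (hbQ : ∀ x : E n, ‖x‖ = 1 → 0 ≤ ∑ i, Q i (ray h x 0) * x i)
    (hpos : ∀ y, 0 < D'.F y → 0 ≤ ∑ i, pd i (XF nu W D'.K i) y + ∑ i, pd i (Q i) y) :
    D.Amin ≤ D.area D'.F ∧ D.area D'.F ≠ ⊤ ∧ 0 < m + e ∧
      (D.Amin.toReal / Stmt.omega n) ^ (((n : ℝ) - 2) / ((n : ℝ) - 1)) / 2 ≤
        ((D.area D'.F).toReal / Stmt.omega n) ^ (((n : ℝ) - 2) / ((n : ℝ) - 1)) / 2 ∧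
      ((D.area D'.F).toReal / Stmt.omega n) ^ (((n : ℝ) - 2) / ((n : ℝ) - 1)) / 2 ≤ m + e := by
  obtain ⟨R, hR⟩ := D'.dom.2.2.2
  have hXs : ∀ i y, 0 ≤ D'.F y → ContDiffAt ℝ ∞ (XF nu W D'.K i) y :=
    fun i y hy => XF_smooth hL hy i
  refine main_CFX (X := fun i y => XF nu W D'.K i y - -Q i y) hL hO
    (fun i y hy => (hXs i y hy).sub (hQ i y hy).neg) ?_ (fun x hx => ?_) fun y hy => ?_
  · have h1 := hlim.add hlimQ
    rw [← mul_add] at h1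
    refine h1.congr' ?_
    filter_upwards [eventually_gt_atTop R, eventually_gt_atTop 0] with r hr hr0
    have hy0 : ∀ y : E n, ‖y‖ = r → 0 ≤ D'.F y := fun y hy =>
      (hR y (by rw [show Stmt.len y = ‖y‖ from rfl, hy]; exact hr)).le
    rw [H474.W.flux_sub (W := XF nu W D'.K) (W' := fun i y => -Q i y) hr0
      (fun i y hy => (hXs i y (hy0 y hy)).continuousAt)
      (fun i y hy => (hQ i y (hy0 y hy)).neg.continuousAt), H474.W.flux_neg]
    ring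
  · have h1 := hb x hx
    have h2 := hbQ x hx
    have e1 : ∑ i, (XF nu W D'.K i (ray h x 0) - -Q i (ray h x 0)) * x i =
        ∑ i, XF nu W D'.K i (ray h x 0) * x i + ∑ i, Q i (ray h x 0) * x i := by
      rw [← Finset.sum_add_distrib]
      exact Finset.sum_congr rfl fun i _ => by ring
    rw [e1]
    linarith
  · have h1 := hpos y hy
    have e1 : ∀ i, pd i (fun y => XF nu W D'.K i y - -Q i y) y =
        pd i (XF nu W D'.K i) y + pd i (Q i) y := fun i => by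
      have a1 : DifferentiableAt ℝ (XF nu W D'.K i) y :=
        (hXs i y hy.le).differentiableAt (by simp)
      have a2 : DifferentiableAt ℝ (Q i) y := (hQ i y hy.le).differentiableAt (by simp)
      have a3 : (fun y => XF nu W D'.K i y - -Q i y) =
          fun y => XF nu W D'.K i y + Q i y := by
        funext y; ring
      rw [a3]
      unfold Vale.Agent.P366.pd
      rw [show (fun y => XF nu W D'.K i y + Q i y) = XF nu W D'.K i + Q i from rfl,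
        fderiv_add a1 a2]
      rfl
    rw [Finset.sum_congr rfl fun i _ => e1 i, Finset.sum_add_distrib]
    exact h1

/-- The momentum. -/
theorem main_CFP [Fact (3 ≤ n)] (hL : IsFol h nu W D') (hO : IsCut D' D) {m : ℝ}
    {y P : Fin n → ℝ}
    (hQ : ∀ i y, 0 ≤ D'.F y → ContDiffAt ℝ ∞ (Q i) y)
    (hlim : Tendsto (flux (XF nu W D'.K)) atTop (𝓝 (((n : ℝ) - 1) * om n * m)))
    (hlimQ : Tendsto (flux Q) atTop (𝓝 (((n : ℝ) - 1) * om n * -((∑ j, y j * P j) / 2))))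
    (hb : ∀ x : E n, ‖x‖ = 1 → mcl nu (ray h x 0) / 2 ≤ ∑ i, XF nu W D'.K i (ray h x 0) * x i)
    (hbQ : ∀ x : E n, ‖x‖ = 1 → 0 ≤ ∑ i, Q i (ray h x 0) * x i)
    (hpos : ∀ y, 0 < D'.F y → 0 ≤ ∑ i, pd i (XF nu W D'.K i) y + ∑ i, pd i (Q i) y) :
    ((D.area D'.F).toReal / Stmt.omega n) ^ (((n : ℝ) - 2) / ((n : ℝ) - 1)) / 2 ≤
        m - (∑ j, y j * P j) / 2 ∧
      ((∀ j, m * y j = 2 * P j) → ∑ j, y j ^ 2 < 4 →
        √(∑ j, P j ^ 2) < m ∧
        ((D.area D'.F).toReal / Stmt.omega n) ^ (((n : ℝ) - 2) / ((n : ℝ) - 1)) / 2 ≤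
          √(m ^ 2 - ∑ j, P j ^ 2)) := by
  obtain ⟨-, -, h3, -, h5⟩ := main_CFQ hL hO hQ hlim hlimQ hb hbQ hpos
  rw [← sub_eq_add_neg] at h3 h5
  refine ⟨h5, fun hy hy4 => ?_⟩
  obtain ⟨h6, h7⟩ := Vale.Agent.H745C.momentum_alg4 h3 le_rfl hy hy4
  refine ⟨h6, h5.trans h7⟩

end Vale.Agent.P366.CF
end
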